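import Mathlib
import Vale.Agent.Lib.P336.Upper
import Vale.Agent.Lib.P336.Lower

namespace Vale.Agent.Results.P336.ShannonBound

open Vale.Agent.Lib.P336

/-- Worst-case depth-three complexity: every Boolean function of `n` variables has an OR-AND-OR
circuit with at most `2 ^ ⌈n / 2⌉ + 2 ^ ⌊n / 2⌋ + 2 ⌈n / 2⌉ + 1` gates, and some function needs
more than `2 ^ (n / 2 + 1) - 2 n - 1` gates. -/
theorem result (n : ℕ) :
    (∀ f : (Fin n → Bool) → Bool, ∃ C : Circuit n, C.Computes f ∧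
      C.size ≤ 2 ^ ((n + 1) / 2) + 2 ^ (n / 2) + 2 * ((n + 1) / 2) + 1) ∧
    (∃ f : (Fin n → Bool) → Bool, ∀ C : Circuit n, C.Computes f →
      2 ^ (n + 2) < (C.size + 2 * n + 1) ^ 2) :=
  ⟨exists_circuit_le n, exists_hard n⟩

end Vale.Agent.Results.P336.ShannonBound
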